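import Vale.Agent.P337.Final

namespace Vale.Agent.Results.P337.InCH

open Vale.Agent.P337

theorem result : ETR ∈ ⋃ j : ℕ, Level j := Set.mem_iUnion.2 etr_mem

end Vale.Agent.Results.P337.InCH
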